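import Vale.Agent.P150.Full.E.Pins
import Vale.Agent.P150.Full.T.ChannelFisher
import Vale.Agent.P150.Beyond.Bochner
import Vale.Agent.P150.Beyond.SmallSet

/-!
# P150, module E6: no traps make rare sets cheap

A law supported near a rare set has large relative entropy, hence, without traps, a Dirichlet form
of order `n`. A cutoff then bounds `n` times the mass of `φ²` on a rare set by the Dirichlet form of
`φ` and a vanishing multiple of its second moment.
-/

open Finset MeasureTheory Real
open Vale.Agent.P150.Fast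
open Vale.Agent.P150.Beyond Vale.Agent.P150.Beyond.Stability
open Vale.Agent.P150.Fast.Ent (ent entAt phi)

namespace Vale.Agent.P150.Full.E

variable {n : ℕ}

/-- What no traps give at one realisation of the disorder. -/
def NoTrapAt (β : ℝ) (g : Edge n → ℝ) (a ε : ℝ) : Prop :=
  ∀ ν : (Fin n → Bool) → ℝ, IsLaw ν → fisher β g 0 ν ≤ a * n → relEnt β g 0 ν ≤ ε * n

section Sites

variable {J : Fin n → Fin n → ℝ} {h : Fin n → ℝ}

/-- The Dirichlet form of a cut-off function. -/
theorem site_mul_le (hJ : IsCoupling J) {χ : (Fin n → Bool) → ℝ} {κ : ℝ} (hχ : ∀ x, |χ x| ≤ 1)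
    (hd : ∀ i x, |grad i χ x| ≤ κ) (i : Fin n) (φ : (Fin n → Bool) → ℝ) :
    site J h i (fun x => χ x * φ x) ≤ 2 * site J h i φ + 2 * κ ^ 2 * mean J h fun x => φ x ^ 2 := by
  rw [mean_cond h hJ i fun x => φ x ^ 2, site, site, ← mean_smul, ← mean_smul, ← mean_add]
  refine mean_le_mean h fun x => ?_
  simp only [Fast.cond, grad, cmean]
  obtain ⟨t1, t2⟩ := abs_lt.1 (Real.abs_tanh_lt_one (field J h i x))
  set c := Real.tanh (field J h i x)
  set χp := χ (Function.update x i true)
  set χm := χ (Function.update x i false)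
  set p := φ (Function.update x i true)
  set q := φ (Function.update x i false)
  have h1 : χp ^ 2 ≤ 1 := (sq_le_one_iff_abs_le_one _).2 (hχ _)
  have h2 : (χp - χm) ^ 2 ≤ κ ^ 2 := by
    rw [← sq_abs]
    exact pow_le_pow_left₀ (abs_nonneg _) (hd i x) 2
  have k0 : 0 ≤ (1 - c ^ 2) / 4 := div_nonneg (by nlinarith) (by norm_num)
  have k := add_sq_le (a := χp * (p - q)) (b := (χp - χm) * q)
  rw [mul_pow, mul_pow, show χp * (p - q) + (χp - χm) * q = χp * p - χm * q by ring] at k
  have e := mul_le_mul_of_nonneg_left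
    (show (χp * p - χm * q) ^ 2 ≤ 2 * (p - q) ^ 2 + 2 * (κ ^ 2 * q ^ 2) by
      linarith [mul_le_mul_of_nonneg_right h1 (sq_nonneg (p - q)),
        mul_le_mul_of_nonneg_right h2 (sq_nonneg q)]) k0
  have e' : (1 - c ^ 2) / 4 * q ^ 2 ≤ (1 + c) / 2 * p ^ 2 + (1 - c) / 2 * q ^ 2 := by
    linarith [mul_nonneg (show 0 ≤ (1 + c) / 2 by linarith) (sq_nonneg p),
      mul_le_mul_of_nonneg_right (show (1 - c ^ 2) / 4 ≤ (1 - c) / 2 by nlinarith) (sq_nonneg q)]
  linarith [mul_le_mul_of_nonneg_left e' (show 0 ≤ 2 * κ ^ 2 by positivity)]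

/-- The Dirichlet form of a square root is at most the conditional entropy. -/
theorem site_sqrt_le_entAt (hJ : IsCoupling J) (i : Fin n) {f : (Fin n → Bool) → ℝ}
    (hf : ∀ x, 0 < f x) : site J h i (fun x => √(f x)) ≤ entAt J h i f := by
  rw [entAt, mean_cond h hJ i (fun x => phi (f x)), ← mean_sub, site]
  refine mean_le_mean h fun x => ?_
  simp only [Fast.cond, grad, cmean]
  obtain ⟨t1, t2⟩ := abs_lt.1 (Real.abs_tanh_lt_one (field J h i x))
  set c := Real.tanh (field J h i x)
  set a := f (Function.update x i true)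
  set b := f (Function.update x i false)
  have ha : 0 < a := hf _
  have hb : 0 < b := hf _
  set M := (1 + c) / 2 * a + (1 - c) / 2 * b with hM
  have hM0 : 0 < M := add_pos (mul_pos (by linarith) ha) (mul_pos (by linarith) hb)
  set E := (1 + c) / 2 * √a + (1 - c) / 2 * √b with hE
  have key : ∀ u : ℝ, 0 < u → 2 * u - 2 * √M * √u ≤ phi u - u * Real.log M := fun u hu => by
    have hs : 0 < √u / √M := div_pos (Real.sqrt_pos.2 hu) (Real.sqrt_pos.2 hM0)
    have h1 := mul_le_mul_of_nonneg_left (Real.one_sub_inv_le_log_of_pos hs) hu.le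
    rw [Real.log_div (Real.sqrt_pos.2 hu).ne' (Real.sqrt_pos.2 hM0).ne', Real.log_sqrt hu.le,
      Real.log_sqrt hM0.le, inv_div] at h1
    have e : u * (√M / √u) = √M * √u := by
      rw [mul_div_assoc', div_eq_iff (Real.sqrt_pos.2 hu).ne', mul_assoc, Real.mul_self_sqrt hu.le]
      ring
    rw [mul_sub, e] at h1
    simp only [phi]
    linarith
  have ka := mul_le_mul_of_nonneg_left (key a ha) (show 0 ≤ (1 + c) / 2 by linarith)
  have kb := mul_le_mul_of_nonneg_left (key b hb) (show 0 ≤ (1 - c) / 2 by linarith)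
  have lhs : (1 - c ^ 2) * (√a - √b) ^ 2 / 4 = M - E ^ 2 := by
    rw [hE, hM]
    linear_combination ((1 - c ^ 2) / 4) * Real.sq_sqrt ha.le
      + ((1 - c ^ 2) / 4) * Real.sq_sqrt hb.le + ((1 + c) ^ 2 / 4) * Real.sq_sqrt ha.le
      + ((1 - c) ^ 2 / 4) * Real.sq_sqrt hb.le
  have fin : M - E ^ 2 ≤ 2 * M - 2 * √M * E := by
    linarith [sq_nonneg (√M - E), Real.sq_sqrt hM0.le, sub_sq (√M) E]
  have e2 : 2 * M - 2 * √M * E = (1 + c) / 2 * (2 * a - 2 * √M * √a) +
      (1 - c) / 2 * (2 * b - 2 * √M * √b) := by rw [hE, hM]; ring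
  have e3 : (1 + c) / 2 * (a * Real.log M) + (1 - c) / 2 * (b * Real.log M) = phi M := by
    rw [phi, hM]; ring
  linarith

end Sites

variable {β : ℝ} {g : Edge n → ℝ}

/-- The law with density `φ² / E φ²` has Dirichlet form at most that of `φ`. -/
theorem mul_fisher_sq_le (φ : (Fin n → Bool) → ℝ) (hm : 0 < mean (skMat n β g) 0 fun x => φ x ^ 2) :
    mean (skMat n β g) 0 (fun x => φ x ^ 2) *
        fisher β g 0 (fun x => weight (skMat n β g) 0 x * φ x ^ 2 /
          mean (skMat n β g) 0 fun x => φ x ^ 2) ≤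
      ∑ i, site (skMat n β g) 0 i φ := by
  set J := skMat n β g
  set m := mean J 0 fun x => φ x ^ 2
  have hJ : IsCoupling J := isCoupling_skMat n β g
  rw [fisher, Finset.mul_sum]
  refine Finset.sum_le_sum fun i _ => ?_
  set W : (Fin n → Bool) → ℝ := weight J 0
  set q : (Fin n → Bool) → ℝ := fun x =>
    (W x + W (flip i x)) * (1 - cmean J 0 i x ^ 2) / 4 with hq
  have hflip : ∀ x, cmean J 0 i (flip i x) = cmean J 0 i x := fun x =>
    cmean_update_self 0 hJ i x _
  have hqf : ∀ x, q (flip i x) = q x := fun x => by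
    simp only [hq, hflip, flip_flip]
    ring
  have hwr : ∀ x, W x * flipRate β g 0 i x = q x := fun x => by
    have hsum : W (Function.update x i true) + W (Function.update x i false) = W x + W (flip i x) :=
      update_true_add_false i x W
    have hw := weight_update_mul 0 hJ i x (x i)
    rw [hsum, Function.update_eq_self] at hw
    have hs : spin (x i) * spin (x i) = 1 := spin_mul_spin _
    simp only [hq, flipRate, W] at hw ⊢
    rw [cmean] at hw ⊢
    linear_combination -((1 - spin (x i) * Real.tanh (field J 0 i x)) / 2) * hw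
      - ((W x + W (flip i x)) * Real.tanh (field J 0 i x) ^ 2 / 4) * hs
  have hq0 : ∀ x, 0 ≤ q x := fun x => by
    rw [← hwr]
    exact mul_nonneg (weight_pos 0 x).le (flipRate_mem β g 0 i x).1.le
  have e : ∀ x, √(W x * φ x ^ 2 / m * flipRate β g 0 i x) = √(q x / m) * |φ x| := fun x => by
    rw [show W x * φ x ^ 2 / m * flipRate β g 0 i x = q x / m * φ x ^ 2 by rw [← hwr x]; ring,
      Real.sqrt_mul (div_nonneg (hq0 x) hm.le), Real.sqrt_sq_eq_abs]
  have hp : ∀ x, m * ((√(W x * φ x ^ 2 / m * flipRate β g 0 i x) -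
      √(W (flip i x) * φ (flip i x) ^ 2 / m * flipRate β g 0 i (flip i x))) ^ 2 / 2) ≤
      q x * grad i φ x ^ 2 / 2 := fun x => by
    have hg : grad i φ x ^ 2 = (φ x - φ (flip i x)) ^ 2 := by
      rw [grad, flip]
      cases hx : x i
      · have : Function.update x i false = x := by rw [← hx, Function.update_eq_self]
        rw [this, Bool.not_false]; ring
      · have : Function.update x i true = x := by rw [← hx, Function.update_eq_self]
        rw [this, Bool.not_true]
    rw [e, e, hqf, ← mul_sub, mul_pow, Real.sq_sqrt (div_nonneg (hq0 x) hm.le), hg]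
    have h1 : (|φ x| - |φ (flip i x)|) ^ 2 ≤ (φ x - φ (flip i x)) ^ 2 := by
      rw [← sq_abs, ← sq_abs (φ x - φ (flip i x))]
      exact pow_le_pow_left₀ (abs_nonneg _) (abs_abs_sub_abs_le_abs_sub _ _) 2
    have h2 := mul_le_mul_of_nonneg_left h1 (hq0 x)
    refine le_trans (le_of_eq ?_) (div_le_div_of_nonneg_right h2 zero_le_two)
    field_simp
  refine (Finset.mul_sum _ _ _).trans_le ((Finset.sum_le_sum fun x _ => hp x).trans (le_of_eq ?_))
  have s2 := sum_update i fun x => W x * ((1 - cmean J 0 i x ^ 2) * grad i φ x ^ 2 / 4)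
  simp only [cmean_update_self 0 hJ, grad_update_self, ← add_mul] at s2
  have e2 : ∀ x, (W (Function.update x i true) + W (Function.update x i false)) *
      ((1 - cmean J 0 i x ^ 2) * grad i φ x ^ 2 / 4) = q x * grad i φ x ^ 2 := fun x => by
    rw [update_true_add_false i x W]
    simp only [hq, flip]
    ring
  simp only [e2] at s2
  rw [← Finset.sum_div, ← s2, site, mean]
  ring

/-- A law supported on a set of mass at most `exp (-c)` has relative entropy at least `c`. -/
theorem le_relEnt_of_support {ν : (Fin n → Bool) → ℝ} (hν : IsLaw ν) {U : Set (Fin n → Bool)}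
    [DecidablePred (· ∈ U)] (hsupp : ∀ x, x ∉ U → ν x = 0) {c : ℝ}
    (hU : mean (skMat n β g) 0 (fun x => if x ∈ U then 1 else 0) ≤ Real.exp (-c)) :
    c ≤ relEnt β g 0 ν := by
  set W := weight (skMat n β g) 0
  set f : (Fin n → Bool) → ℝ := fun x => ν x / W x with hf
  have hW : ∀ x, 0 < W x := fun x => weight_pos 0 x
  have hm : mean (skMat n β g) 0 f = 1 := by
    rw [← hν.2, mean]
    exact Finset.sum_congr rfl fun x _ => mul_div_cancel₀ _ (hW x).ne'
  have h := mul_log_le_ent (U := U) (f := f) (fun x => div_nonneg (hν.1 x) (hW x).le)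
    (fun x hx => by simp [hf, hsupp x hx]) hU
  rw [hm, mul_one, ent, hm] at h
  simp only [phi, Real.log_one, mul_zero, sub_zero] at h
  refine h.trans (le_of_eq (Finset.sum_congr rfl fun x _ => ?_))
  show W x * (ν x / W x * Real.log (ν x / W x)) = _
  rcases (hν.1 x).eq_or_lt with e | e
  · rw [← e]; simp
  · rw [← mul_assoc, mul_div_cancel₀ _ (hW x).ne', Real.log_div e.ne' (hW x).ne']

/-- Without traps, sets of mass below `exp (-2 ε n)` are small sets. -/
theorem smallSet_of_noTrap {a ε : ℝ} (hn : 0 < n) (hε : 0 < ε) (hT : NoTrapAt β g a ε)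
    (U : Set (Fin n → Bool)) [DecidablePred (· ∈ U)]
    (hU : mean (skMat n β g) 0 (fun x => if x ∈ U then 1 else 0) ≤ Real.exp (-(2 * ε * n))) :
    SmallSet (skMat n β g) 0 U (a * n) := by
  intro φ hφ
  set m := mean (skMat n β g) 0 fun x => φ x ^ 2 with hm
  rcases (mean_nonneg (J := skMat n β g) 0 fun x => sq_nonneg (φ x)).eq_or_lt with h0 | h0
  · rw [mul_eq_zero_of_right _ h0.symm]
    exact Finset.sum_nonneg fun i _ => site_nonneg 0 i φ
  set ν : (Fin n → Bool) → ℝ := fun x => weight (skMat n β g) 0 x * φ x ^ 2 / m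
  have hν : IsLaw ν := by
    refine ⟨fun x => div_nonneg (mul_nonneg (weight_pos 0 x).le (sq_nonneg _)) h0.le, ?_⟩
    rw [← Finset.sum_div]
    exact div_self h0.ne'
  have hlow := le_relEnt_of_support hν (U := U) (fun x hx => by simp [ν, hφ x hx]) hU
  have hfis : a * n < fisher β g 0 ν := by
    by_contra hle
    have := hT ν hν (not_lt.1 hle)
    have : 0 < ε * n := mul_pos hε (by exact_mod_cast hn)
    linarith
  refine le_trans ?_ (mul_fisher_sq_le φ h0)
  rw [mul_comm]
  exact mul_le_mul_of_nonneg_left hfis.le h0.le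

/-- A Hamming neighbourhood of a rare set is rare. -/
theorem mass_near_le {L : ℝ} (hL : OpBound g L) (hL0 : 0 ≤ L) (hβ : 0 ≤ β) (B : Set (Fin n → Bool))
    [DecidablePred (· ∈ B)] (k : ℕ) [DecidablePred (· ∈ near B k)] {t : ℝ} (ht : 0 < t) (ht1 : t ≤ 1) :
    mean (skMat n β g) 0 (fun x => if x ∈ near B k then 1 else 0) ≤
      Real.exp (β * L * (2 * √((k : ℝ) * n) + 2 * k)) * ((1 + t) ^ n / t ^ k) *
        mean (skMat n β g) 0 fun x => if x ∈ B then 1 else 0 := by
  set J := skMat n β g
  set Δ := β * L * (2 * √((k : ℝ) * n) + 2 * k)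
  have hham : ∀ x, ham J 0 x = β / 2 * bil g (spinv x) (spinv x) := fun x => by
    simp only [J, ham, Pi.zero_apply, zero_mul, Finset.sum_const_zero, zero_add, bil, spinv,
      Finset.mul_sum, Finset.sum_div]
    exact Finset.sum_congr rfl fun i _ => Finset.sum_congr rfl fun j _ => by rw [skMat_smul]; ring
  have hdiff : ∀ x y, hammingDist x y < k → weight J 0 x ≤ Real.exp Δ * weight J 0 y := fun x y hd => by
    rw [weight, weight, ← mul_div_assoc, ← Real.exp_add]
    refine div_le_div_of_nonneg_right (Real.exp_le_exp.2 ?_) (Ent.part_pos J 0).le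
    set d : Fin n → ℝ := fun i => spinv x i - spinv y i with hd'
    have hdk : ∑ i, d i ^ 2 ≤ 4 * k := by
      simp only [hd', spinv]
      rw [sum_spin_sub_sq]
      exact mul_le_mul_of_nonneg_left (by exact_mod_cast hd.le) (by norm_num)
    have hb := bil_line g (spinv y) d 1
    rw [show (fun i => spinv y i + 1 * d i) = spinv x from funext fun i => by simp [hd']] at hb
    have hy : ∑ i, spinv y i ^ 2 = n := by simp [spinv, Ent.spin_sq_eq]
    have hk' : (0 : ℝ) < k := by exact_mod_cast (show 0 < k by omega)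
    have hn' : (0 : ℝ) ≤ n := Nat.cast_nonneg n
    have hs : √((k : ℝ) * n) = √k * √n := Real.sqrt_mul hk'.le _
    have h1 : |bil g (spinv y) d| ≤ L * (2 * √((k : ℝ) * n)) := by
      rcases hn'.eq_or_lt with e | e
      · have hn0 : n = 0 := by exact_mod_cast e.symm
        subst hn0
        simp [bil]
      refine (bil_abs_le hL (spinv y) d (t := 2 * √k / √n) (by positivity)).trans ?_
      rw [hy]
      refine (mul_le_mul_of_nonneg_left (add_le_add le_rfl (div_le_div_of_nonneg_right hdk
        (by positivity))) (by positivity)).trans (le_of_eq ?_)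
      rw [hs]
      field_simp
      rw [Real.sq_sqrt hk'.le, Real.sq_sqrt hn']
      ring
    have h2 : |bil g d d| ≤ L * (4 * k) := (hL d).trans (mul_le_mul_of_nonneg_left hdk hL0)
    rw [hham, hham, hb]
    have := mul_le_mul_of_nonneg_left (add_le_add ((le_abs_self _).trans h1)
      ((le_abs_self _).trans h2)) hβ
    nlinarith [abs_le.1 h1, abs_le.1 h2, mul_nonneg hβ (mul_nonneg hL0 (Real.sqrt_nonneg ((k:ℝ) * n)))]
  have hball : ∀ y : Fin n → Bool, ∑ x : Fin n → Bool, (t ^ hammingDist x y / t ^ k) =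
      (1 + t) ^ n / t ^ k := fun y => by
    rw [← Finset.sum_div]
    congr 1
    have e : ∀ x : Fin n → Bool, t ^ hammingDist x y = ∏ i, if x i ≠ y i then t else 1 := fun x => by
      rw [Finset.prod_ite, Finset.prod_const, Finset.prod_const_one, mul_one, hammingDist]
    simp only [e]
    rw [← Fintype.prod_sum fun i b => if b ≠ y i then t else 1, Finset.prod_eq_pow_card (b := 1 + t),
      Finset.card_univ, Fintype.card_fin]
    intro i _
    cases y i <;> simp [add_comm]
  calc mean J 0 (fun x => if x ∈ near B k then 1 else 0)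
      ≤ ∑ x, ∑ y, Real.exp Δ * (weight J 0 y * if y ∈ B then 1 else 0) *
          (t ^ hammingDist x y / t ^ k) := Finset.sum_le_sum fun x _ => by
        have h0 : ∀ y, 0 ≤ Real.exp Δ * (weight J 0 y * if y ∈ B then 1 else 0) *
            (t ^ hammingDist x y / t ^ k) := fun y => mul_nonneg (mul_nonneg (Real.exp_pos _).le
              (mul_nonneg (weight_pos 0 y).le (by split_ifs <;> norm_num))) (by positivity)
        beta_reduce
        by_cases hx : x ∈ near B k
        · obtain ⟨y, hy, hd⟩ := hx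
          rw [if_pos (show x ∈ near B k from ⟨y, hy, hd⟩), mul_one]
          refine le_trans ?_ (Finset.single_le_sum (fun y _ => h0 y) (Finset.mem_univ y))
          rw [if_pos hy, mul_one]
          refine (hdiff x y hd).trans (le_mul_of_one_le_right (mul_nonneg (Real.exp_pos _).le
            (weight_pos 0 y).le) ?_)
          rw [le_div_iff₀ (pow_pos ht k), one_mul]
          exact pow_le_pow_of_le_one ht.le ht1 hd.le
        · rw [if_neg hx, mul_zero]
          exact Finset.sum_nonneg fun y _ => h0 y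
    _ = _ := by
        rw [Finset.sum_comm]
        simp only [← Finset.mul_sum, hball, mean, ← Finset.sum_mul]
        ring

/-- On a rare set `n` times the mass of `φ²` costs at most the Dirichlet form. -/
theorem rare_mass_le {L a ε : ℝ} (hn : 0 < n) (hε : 0 < ε) (ha : 0 < a) (hT : NoTrapAt β g a ε)
    (hL : OpBound g L) (hL0 : 0 ≤ L) (hβ : 0 ≤ β) {k : ℕ} (hk : 0 < k) {t κ : ℝ} (ht : 0 < t)
    (ht1 : t ≤ 1)
    (hsmall : Real.exp (β * L * (2 * √((k : ℝ) * n) + 2 * k)) * ((1 + t) ^ n / t ^ k) *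
      Real.exp (-(κ / 2 * n)) ≤ Real.exp (-(2 * ε * n)))
    {p : (Fin n → Bool) → ℝ} (hp0 : ∀ x, 0 ≤ p x) (hp1 : ∀ x, p x ≤ 1)
    (hp : mean (skMat n β g) 0 p ≤ Real.exp (-(κ * n))) (φ : (Fin n → Bool) → ℝ) :
    n * mean (skMat n β g) 0 (fun x => φ x ^ 2 * p x) ≤
      2 / a * (∑ i, site (skMat n β g) 0 i φ) +
        (n * Real.exp (-(κ / 2 * n)) + 2 * n / (a * (k : ℝ) ^ 2)) *
          mean (skMat n β g) 0 fun x => φ x ^ 2 := by
  classical
  set J := skMat n β g
  set θ := Real.exp (-(κ / 2 * n))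
  set B : Set (Fin n → Bool) := {x | θ < p x}
  have hn' : (0 : ℝ) < n := by exact_mod_cast hn
  obtain ⟨χ, hχ1, hχB, hχU, hχd⟩ := exists_cutoff B hk
  have hB : mean J 0 (fun x => if x ∈ B then 1 else 0) ≤ θ := by
    have h1 : θ * mean J 0 (fun x => if x ∈ B then 1 else 0) ≤ θ * θ := by
      rw [← mean_smul]
      refine le_trans (mean_le_mean 0 fun x => ?_) (hp.trans (le_of_eq ?_))
      · by_cases hx : x ∈ B
        · rw [if_pos hx, mul_one]; exact le_of_lt hx
        · rw [if_neg hx, mul_zero]; exact hp0 x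
      · rw [← Real.exp_add]; ring_nf
    exact le_of_mul_le_mul_left h1 (Real.exp_pos _)
  have hS := smallSet_of_noTrap hn hε hT (near B k) (((mass_near_le hL hL0 hβ B k ht ht1).trans
    (mul_le_mul_of_nonneg_left hB (by positivity))).trans hsmall)
    (fun x => χ x * φ x) fun x hx => by rw [hχU x hx, zero_mul]
  have hsite := hS.trans (Finset.sum_le_sum fun i _ =>
    site_mul_le (isCoupling_skMat n β g) hχ1 (fun i x => hχd i x) i φ)
  rw [Finset.sum_add_distrib, ← Finset.mul_sum, Finset.sum_const, Finset.card_univ, Fintype.card_fin,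
    nsmul_eq_mul] at hsite
  have hpt : mean J 0 (fun x => φ x ^ 2 * p x) ≤
      θ * mean J 0 (fun x => φ x ^ 2) + mean J 0 fun x => (χ x * φ x) ^ 2 := by
    rw [← mean_smul, ← mean_add]
    refine mean_le_mean 0 fun x => ?_
    by_cases hx : x ∈ B
    · rw [hχB x hx, one_mul]
      linarith [mul_nonneg (Real.exp_pos (-(κ / 2 * n))).le (sq_nonneg (φ x)),
        mul_le_of_le_one_right (sq_nonneg (φ x)) (hp1 x)]
    · linarith [mul_le_mul_of_nonneg_left (not_lt.1 hx) (sq_nonneg (φ x)), sq_nonneg (χ x * φ x)]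
  refine le_of_mul_le_mul_left ?_ ha
  have := mul_le_mul_of_nonneg_left (mul_le_mul_of_nonneg_left hpt hn'.le) ha.le
  refine this.trans ?_
  have hk' : (0 : ℝ) < k := by exact_mod_cast hk
  have e : a * (2 / a * (∑ i, site J 0 i φ) +
      (n * θ + 2 * n / (a * (k : ℝ) ^ 2)) * mean J 0 fun x => φ x ^ 2) =
      2 * (∑ i, site J 0 i φ) + a * n * θ * (mean J 0 fun x => φ x ^ 2) +
        n * (2 * (1 / k : ℝ) ^ 2 * mean J 0 fun x => φ x ^ 2) := by
    field_simp
    ring
  rw [e]
  linarith

end Vale.Agent.P150.Full.E
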