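import Vale.Agent.P150.Full.E.Fast.Run
import Vale.Agent.P150.Full.E.Fast.Rare
import Vale.Agent.P150.Beyond.Chain
import Vale.Agent.P150.Fast.Assembly

/-!
# P150, module E6: the end of the channel, the shift bounds and the rare observations
-/

open Finset MeasureTheory Real
open Vale.Agent.P150.Fast
open Vale.Agent.P150.Beyond Vale.Agent.P150.Beyond.Stability
open Vale.Agent.P150.Fast.Ent (ent entAt phi lin mag)

namespace Vale.Agent.P150.Full.E

variable {n : ℕ} {g : Edge n → ℝ} {c L : ℝ} {A : Fin n → Fin n → ℝ}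

/-! ## Without couplings -/

theorem skMat_zero (n : ℕ) (g : Edge n → ℝ) : skMat n 0 g = fun _ _ => 0 :=
  funext fun i => funext fun j => by simp [skMat]

section Product

variable {κ : Type} [Fintype κ] [DecidableEq κ] {J : κ → κ → ℝ}

theorem poincare_product (hJ0 : J = fun _ _ => 0) : Poincare J 1 := by
  subst hJ0
  obtain ⟨θ₀, hθ, hP⟩ := pairCriterion
  have h := hP (fun _ _ : κ => (0 : ℝ)) 0 0 0 ⟨fun _ _ => rfl, fun _ => rfl⟩ (fun _ _ => by simp) hθ.le
    (fun v => by simp [eff]) fun i => by simp
  simpa using h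

theorem covBound_product (hJ0 : J = fun _ _ => 0) : CovBound J 1 := by
  intro h v
  have hJ : IsCoupling J := by subst hJ0; exact ⟨fun _ _ => rfl, fun _ => rfl⟩
  have h1 := poincare_product hJ0 h fun x => ∑ i, v i * spin (x i)
  rw [one_mul] at h1 ⊢
  refine h1.trans (Finset.sum_le_sum fun i _ => ?_)
  have hc : ∀ x, cmean J h i x = Real.tanh (h i) := fun x => by
    simp [cmean, Fast.field, hJ0]
  have hmag : mean J h (fun x => spin (x i)) = Real.tanh (h i) := by
    rw [mean_cond h hJ i]
    refine Eq.trans (congrArg (mean J h) (funext fun x => ?_)) (mean_const h (Real.tanh (h i)))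
    simp [Fast.cond, hc, spin]
    ring
  have e : var J h (fun x => spin (x i)) = 1 - Real.tanh (h i) ^ 2 := by
    show var J h (fun x => spin (x i)) = _
    rw [Ent.var_spin]
    unfold Ent.mag
    rw [hmag]
  rw [e, site]
  refine (mean_le_mean h fun x => le_of_eq ?_).trans_eq (mean_const h _)
  have hg : grad i (fun x => ∑ k, v k * spin (x k)) x = 2 * v i := by
    simp only [grad, ← Finset.sum_sub_distrib]
    rw [Finset.sum_eq_single i]
    · simp [spin]; ring
    · intro k _ hk; simp [Function.update_of_ne hk]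
    · simp
  rw [hg, hc]
  ring

/-- Entropy and variance of a product measure. -/
theorem ent_product (hJ0 : J = fun _ _ => 0) (h : κ → ℝ) {f : (κ → Bool) → ℝ} (hf : ∀ x, 0 < f x) :
    ent J h f ≤ ∑ j, entAt J h j f := by
  have hJ : IsCoupling J := by subst hJ0; exact ⟨fun _ _ => rfl, fun _ => rfl⟩
  have hA : AllCovBound J fun _ => 1 := fun e => covBound_product (by subst hJ0; rfl)
  have h1 := (Ent.tensor J (fun _ => 1) hJ hA (fun m hm _ => ⟨le_rfl, by exact_mod_cast hm⟩) h hf).2
  have e : atConst (fun _ : ℕ => (1 : ℝ)) (Fintype.card κ) = 1 :=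
    Finset.prod_eq_one fun m hm => div_self (by
      have : (2 : ℝ) ≤ m := by exact_mod_cast (Finset.mem_Icc.1 hm).1
      linarith)
  rwa [e, one_mul] at h1

end Product

/-- Conditioning only lowers the expected conditional variances. -/
theorem site_channel (hA : IsRoot (skMat n 1 g) c L A) {t : ℝ} (ht : 0 ≤ t) (θ : ℝ) (y₀ : Fin n → ℝ)
    (j : Fin n) (f : (Fin n → Bool) → ℝ) :
    ∫ z, obsG θ g y₀ A t (fun Y => site (skMat n (θ - t) g) (chField A y₀ Y) j f) z ∂stdPi (Fin n) ≤
        site (skMat n θ g) y₀ j f ∧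
      Integrable (obsG θ g y₀ A t fun Y => site (skMat n (θ - t) g) (chField A y₀ Y) j f)
        (stdPi (Fin n)) := by
  have hJ := isCoupling_skMat n θ g
  set u := Fast.cond (skMat n θ g) y₀ j f with hu
  have huj : ∀ b x, u (Function.update x j b) = u x := fun b x => Ent.cond_update hJ j b f x
  have hle : ∀ Y, site (skMat n (θ - t) g) (chField A y₀ Y) j f ≤
      mean (skMat n (θ - t) g) (chField A y₀ Y) (fun x => (f x - u x) ^ 2) := fun Y => by
    rw [mean_cond _ (isCoupling_skMat n _ g) j fun x => (f x - u x) ^ 2, site]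
    refine mean_le_mean _ fun x => ?_
    simp only [Fast.cond, grad, huj, cmean]
    obtain ⟨t1, t2⟩ := abs_lt.1 (Real.abs_tanh_lt_one
      (field (skMat n (θ - t) g) (chField A y₀ Y) j x))
    set a := Real.tanh (field (skMat n (θ - t) g) (chField A y₀ Y) j x)
    linarith [sq_nonneg ((1 + a) / 2 * (f (Function.update x j true) - u x) +
      (1 - a) / 2 * (f (Function.update x j false) - u x))]
  obtain ⟨h1, h2⟩ := integral_chG_mean hA ht θ y₀ fun x => (f x - u x) ^ 2
  have hm : Measurable fun Y => site (skMat n (θ - t) g) (chField A y₀ Y) j f := by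
    have htanh : Continuous Real.tanh := by
      simp only [show Real.tanh = fun a => Real.sinh a / Real.cosh a from
        funext Real.tanh_eq_sinh_div_cosh]
      exact Real.continuous_sinh.div₀ Real.continuous_cosh fun a => (Real.cosh_pos a).ne'
    refine Continuous.measurable ?_
    unfold site mean weight ham chField cmean field
    fun_prop (disch := exact fun _ => (Finset.sum_pos (fun _ _ => Real.exp_pos _) univ_nonempty).ne')
  have hi : Integrable (obsG θ g y₀ A t fun Y => site (skMat n (θ - t) g) (chField A y₀ Y) j f)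
      (stdPi (Fin n)) := by
    have hs : Measurable fun z : Fin n → ℝ => fun k => √t * z k := by fun_prop
    refine Integrable.mono' h2 ((((continuous_chG _ _ _ _).measurable).comp hs).mul
      (hm.comp hs)).aestronglyMeasurable (Filter.Eventually.of_forall fun z => ?_)
    rw [obsG, Real.norm_of_nonneg (mul_nonneg (chG_pos _ _ _).le (site_nonneg _ _ _))]
    exact mul_le_mul_of_nonneg_left (hle _) (chG_pos _ _ _).le
  refine ⟨(integral_mono hi h2 fun z => mul_le_mul_of_nonneg_left (hle _) (chG_pos _ _ _).le).trans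
    (le_of_eq (h1.trans ?_)), hi⟩
  rw [mean_cond _ hJ j fun x => (f x - u x) ^ 2, site]
  refine congrArg _ (funext fun x => ?_)
  simp only [Fast.cond, grad, huj]
  simp only [hu, Fast.cond]
  ring

/-! ## Shift bounds -/

theorem sum_magShift_sq_le_var (J : Fin n → Fin n → ℝ) (y : Fin n → ℝ) (f : (Fin n → Bool) → ℝ)
    {K : ℝ} (hK : 0 ≤ K) (hcov : ∀ v : Fin n → ℝ, var J y (lin v) ≤ K * ∑ i, v i ^ 2) :
    ∑ i, magShift J y f i ^ 2 ≤ K * var J y f := by
  set v := magShift J y f with hv
  set S := ∑ i, v i ^ 2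
  set M := mean J y f
  have e : S = ∑ x, weight J y x * (f x - M) * (lin v x - mean J y (lin v)) := by
    calc S = ∑ x, weight J y x * (f x - M) * lin v x := by
          simp only [S, sq]
          nth_rewrite 1 [hv]
          simp only [magShift, mean, mag, Ent.mag, lin, Finset.sum_mul, Finset.mul_sum,
            ← Finset.sum_sub_distrib]
          rw [Finset.sum_comm]
          refine Finset.sum_congr rfl fun x _ => Finset.sum_congr rfl fun i _ => ?_
          rw [← Finset.sum_mul]
          simp only [M, mean]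
          ring
      _ = _ := by
          have h0 : ∑ x, weight J y x * (f x - M) = 0 := by
            simp only [mul_sub, Finset.sum_sub_distrib, ← Finset.sum_mul, sum_weight (J := J) y, one_mul]
            exact sub_self _
          simp only [mul_sub (_ * _), Finset.sum_sub_distrib, ← Finset.sum_mul, h0, zero_mul, sub_zero]
  have h2 : S ^ 2 ≤ var J y f * var J y (lin v) := by
    rw [e]
    exact Finset.sum_sq_le_sum_mul_sum_of_sq_le_mul (R := ℝ) univ
      (fun x _ => mul_nonneg (weight_pos y x).le (sq_nonneg _))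
      (fun x _ => mul_nonneg (weight_pos y x).le (sq_nonneg _)) fun x _ => le_of_eq (by ring)
  have hS : 0 ≤ S := Finset.sum_nonneg fun i _ => sq_nonneg _
  have hV : 0 ≤ var J y f := mean_nonneg y fun x => sq_nonneg _
  rcases hS.eq_or_lt with h0 | h0
  · rw [← h0]; exact mul_nonneg hK hV
  have h3 := h2.trans (mul_le_mul_of_nonneg_left (hcov v) hV)
  exact le_of_mul_le_mul_right (h3.trans_eq' (by ring) |>.trans_eq (by ring)) h0

theorem var_lin_le_card (J : Fin n → Fin n → ℝ) (y v : Fin n → ℝ) :
    var J y (lin v) ≤ n * ∑ i, v i ^ 2 := by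
  rw [var_eq]
  refine (sub_le_self _ (sq_nonneg _)).trans ((mean_le_mean y fun x => ?_).trans_eq (mean_const y _))
  have := Finset.sum_mul_sq_le_sq_mul_sq univ v fun i => spin (x i)
  simp only [Ent.spin_sq_eq, Finset.sum_const, Finset.card_univ, Fintype.card_fin, nsmul_eq_mul,
    mul_one] at this
  exact this.trans_eq (mul_comm _ _)

theorem sum_magShift_sq_le_mean (J : Fin n → Fin n → ℝ) (y : Fin n → ℝ) {f : (Fin n → Bool) → ℝ}
    (hf : ∀ x, 0 < f x) : ∑ i, magShift J y f i ^ 2 ≤ 4 * n * mean J y f ^ 2 := by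
  have hM : 0 < mean J y f := Ent.mean_pos hf
  refine (Finset.sum_le_sum (g := fun _ => (2 * mean J y f) ^ 2) fun i _ => sq_le_sq' ?_ ?_).trans_eq
    (by simp; ring) <;>
  · obtain ⟨m1, m2⟩ := abs_lt.1 (Ent.abs_mag_lt (J := J) (h := y) i)
    have h1 : |mean J y fun x => f x * spin (x i)| ≤ mean J y f := by
      rw [abs_le]
      constructor
      · rw [show -mean J y f = (-1) * mean J y f by ring, ← mean_smul]
        refine mean_le_mean y fun x => ?_
        rcases spin_cases (x i) with e | e <;> rw [e] <;> linarith [hf x]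
      · refine mean_le_mean y fun x => ?_
        rcases spin_cases (x i) with e | e <;> rw [e] <;> linarith [hf x]
    obtain ⟨a1, a2⟩ := abs_le.1 h1
    simp only [magShift]
    nlinarith

/-! ## Rare observations -/

/-- The probability of `B` given the configuration. -/
noncomputable def obsProb (A : Fin n → Fin n → ℝ) (t : ℝ) (B : Set (Fin n → ℝ)) (x : Fin n → Bool) : ℝ :=
  ∫ z, chTilt A t (fun k => √t * z k) x * B.indicator (fun _ => (1 : ℝ)) (fun k => √t * z k)
    ∂stdPi (Fin n)

theorem integrable_obsProb {t : ℝ} (ht : 0 ≤ t) {B : Set (Fin n → ℝ)} (hB : MeasurableSet B)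
    (x : Fin n → Bool) :
    Integrable (fun z => chTilt A t (fun k => √t * z k) x *
      B.indicator (fun _ => (1 : ℝ)) (fun k => √t * z k)) (stdPi (Fin n)) :=
  (integral_chTilt (A := A) ht x).2.mul_bdd (c := 1)
    ((measurable_const.indicator hB).comp (by fun_prop)).aestronglyMeasurable
    (Filter.Eventually.of_forall fun z => by
      by_cases h : (fun k => √t * z k) ∈ B <;> simp [h])

theorem obsProb_nonneg {t : ℝ} (B : Set (Fin n → ℝ)) (x : Fin n → Bool) : 0 ≤ obsProb A t B x :=
  integral_nonneg fun z => mul_nonneg (chTilt_pos _ _ _).le (Set.indicator_nonneg (fun _ _ => zero_le_one) _)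

theorem obsProb_le_one {t : ℝ} (ht : 0 ≤ t) {B : Set (Fin n → ℝ)} (hB : MeasurableSet B)
    (x : Fin n → Bool) : obsProb A t B x ≤ 1 := by
  refine (integral_mono (integrable_obsProb ht hB x) (integral_chTilt (A := A) ht x).2 fun z => ?_).trans_eq
    (integral_chTilt ht x).1
  exact mul_le_of_le_one_right (chTilt_pos _ _ _).le (Set.indicator_le_self' (fun _ _ => zero_le_one) _)

theorem integral_obsG_indicator (hA : IsRoot (skMat n 1 g) c L A) {t : ℝ} (ht : 0 ≤ t) (θ : ℝ)
    (y₀ : Fin n → ℝ) {B : Set (Fin n → ℝ)} (hB : MeasurableSet B) (F : (Fin n → Bool) → ℝ) :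
    ∫ z, obsG θ g y₀ A t (fun Y => B.indicator (fun _ => (1 : ℝ)) Y *
        mean (skMat n (θ - t) g) (chField A y₀ Y) F) z ∂stdPi (Fin n) =
      mean (skMat n θ g) y₀ (fun x => F x * obsProb A t B x) ∧
      Integrable (obsG θ g y₀ A t fun Y => B.indicator (fun _ => (1 : ℝ)) Y *
        mean (skMat n (θ - t) g) (chField A y₀ Y) F) (stdPi (Fin n)) := by
  have e : obsG θ g y₀ A t (fun Y => B.indicator (fun _ => (1 : ℝ)) Y *
      mean (skMat n (θ - t) g) (chField A y₀ Y) F) = fun z => ∑ x, weight (skMat n θ g) y₀ x * F x *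
      (chTilt A t (fun k => √t * z k) x * B.indicator (fun _ => (1 : ℝ)) (fun k => √t * z k)) := by
    funext z
    rw [obsG, mul_left_comm, ← sum_weight_tilt hA, Finset.mul_sum]
    exact Finset.sum_congr rfl fun x _ => by ring
  have hi := fun x => (integrable_obsProb (A := A) ht hB x).const_mul (weight (skMat n θ g) y₀ x * F x)
  rw [e]
  refine ⟨?_, integrable_finsetSum _ fun x _ => hi x⟩
  rw [integral_finsetSum _ fun x _ => hi x, mean]
  exact Finset.sum_congr rfl fun x _ => by rw [integral_const_mul, obsProb, mul_assoc]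

end Vale.Agent.P150.Full.E
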