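import Vale.Agent.P150.Full.E.Fast.StepVar

/-!
# P150, module E6: the channel with weighted errors, for entropy and for variance
-/

open Finset MeasureTheory Real
open Vale.Agent.P150.Fast
open Vale.Agent.P150.Beyond
open Vale.Agent.P150.Fast.Ent (ent entAt phi)

namespace Vale.Agent.P150.Full.E

variable {n : ℕ} {g : Edge n → ℝ} {c L : ℝ} {A : Fin n → Fin n → ℝ}

/-- A backward Grönwall iteration. -/
theorem grid_iter {Φ : ℕ → ℝ} {N : ℕ} {a e : ℝ} (ha : 0 ≤ a) (ha1 : 2 * a ≤ 1) (he : 0 ≤ e)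
    (hΦ : ∀ k, 0 ≤ Φ k) (step : ∀ k < N, Φ k * (1 - a) ≤ Φ (k + 1) + e) :
    Φ 0 ≤ Real.exp (2 * a * N) * (Φ N + N * e) := by
  have step' : ∀ k < N, Φ k ≤ (1 + 2 * a) * (Φ (k + 1) + e) := fun k hk => by
    have := mul_le_mul_of_nonneg_left (step k hk) (show 0 ≤ 1 + 2 * a by linarith)
    have := mul_nonneg (mul_nonneg (hΦ k) ha) (show 0 ≤ 1 - 2 * a by linarith)
    linarith
  have iter : ∀ j ≤ N, Φ (N - j) ≤ (1 + 2 * a) ^ j * (Φ N + j * e) := by
    intro j hj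
    induction j with
    | zero => simp
    | succ j ih =>
      have h1 := step' (N - (j + 1)) (by omega)
      rw [show N - (j + 1) + 1 = N - j by omega] at h1
      refine h1.trans ?_
      have h2 : e ≤ (1 + 2 * a) ^ j * e := le_mul_of_one_le_left he (one_le_pow₀ (by linarith))
      refine (mul_le_mul_of_nonneg_left (add_le_add (ih (by omega)) h2) (by linarith)).trans_eq ?_
      push_cast
      ring
  have h0 := iter N le_rfl
  rw [Nat.sub_self] at h0
  refine h0.trans (mul_le_mul_of_nonneg_right ?_ (add_nonneg (hΦ N) (by positivity)))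
  refine (pow_le_pow_left₀ (by linarith)
    ((Real.add_one_le_exp (2 * a)).trans' (by linarith)) N).trans (le_of_eq ?_)
  rw [← Real.exp_nat_mul]
  ring_nf

/-- The observation at time `t` carried to the white noise. -/
noncomputable def obsG (θ : ℝ) (g : Edge n → ℝ) (y₀ : Fin n → ℝ) (A : Fin n → Fin n → ℝ) (t : ℝ)
    (F : (Fin n → ℝ) → ℝ) (z : Fin n → ℝ) : ℝ :=
  chG (skMat n θ g) y₀ A t (fun i => √t * z i) * F fun i => √t * z i

/-- One step for the entropy. -/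
theorem chPhi_step_w (hA : IsRoot (skMat n 1 g) c L A) {B : ℝ} (hB : ∀ x, ∑ k, chDir A x k ^ 2 ≤ B)
    {h t : ℝ} (h0 : 0 ≤ h) (ht0 : 0 ≤ t) {K : ℝ} (hhB : 4 * (h * B) ≤ 1) (θ : ℝ) (y₀ : Fin n → ℝ)
    {f : (Fin n → Bool) → ℝ} (hf : ∀ x, 0 < f x) {w : (Fin n → ℝ) → ℝ}
    (hbound : ∀ Y : Fin n → ℝ, shiftSq A (skMat n (θ - t) g) (chField A y₀ Y) f ≤
      mean (skMat n (θ - t) g) (chField A y₀ Y) f *
        (K * ent (skMat n (θ - t) g) (chField A y₀ Y) f + w Y))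
    (hwi : Integrable (obsG θ g y₀ A t w) (stdPi (Fin n))) {D : ℝ}
    (hD : ∫ z, obsG θ g y₀ A t w z ∂stdPi (Fin n) ≤ D) :
    chPhi θ g y₀ A t f * (1 - h * K) ≤ chPhi θ g y₀ A (t + h) f +
      (h * D + 144 * h ^ 2 * B ^ 2 * mean (skMat n θ g) y₀ f) := by
  have hsq : √t ^ 2 + √h ^ 2 = √(t + h) ^ 2 := by
    rw [Real.sq_sqrt ht0, Real.sq_sqrt h0, Real.sq_sqrt (add_nonneg ht0 h0)]
  set F : (Fin n → ℝ) → ℝ := fun Y => chG (skMat n θ g) y₀ A (t + h) Y *
    phi (mean (skMat n (θ - (t + h)) g) (chField A y₀ Y) f) with hF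
  obtain ⟨p1, p2⟩ := integral_pair hsq (F := F) ((continuous_chG _ _ _ _).mul
    (continuous_phi.comp (continuous_mean_chField _ _ _ _))).measurable
    (integrable_chG_phi hA (add_nonneg ht0 h0) θ y₀ f)
  set G := fun z : Fin n → ℝ => chG (skMat n θ g) y₀ A t fun i => √t * z i with hG
  set M := fun z : Fin n → ℝ =>
    mean (skMat n (θ - t) g) (chField A y₀ fun i => √t * z i) f with hM
  set E := fun z : Fin n → ℝ =>
    ent (skMat n (θ - t) g) (chField A y₀ fun i => √t * z i) f with hE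
  set P := fun z : Fin n → ℝ => phi (M z) with hP
  have hiQ : Integrable (fun z => G z * P z) (stdPi (Fin n)) := integrable_chG_phi hA ht0 θ y₀ f
  obtain ⟨heE, hie⟩ := integral_chG_ent hA ht0 θ y₀ f
  obtain ⟨heM, him⟩ := integral_chG_mean hA ht0 θ y₀ f
  have hpt : ∀ z, (∫ z', F (fun i => √t * z i + √h * z' i) ∂stdPi (Fin n)) - G z * P z ≤
      h * K * (G z * E z) + (h * obsG θ g y₀ A t w z + 144 * h ^ 2 * B ^ 2 * (G z * M z)) :=
    fun z => by
    refine (channel_step hA hB h0 hhB θ y₀ (fun i => √t * z i) hf).trans ?_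
    have hM0 : 0 < M z := Ent.mean_pos hf
    have hb' := div_le_div_of_nonneg_right
      (mul_le_mul_of_nonneg_left (hbound fun i => √t * z i) h0) hM0.le
    rw [mul_left_comm h, mul_div_cancel_left₀ _ hM0.ne'] at hb'
    have := mul_le_mul_of_nonneg_left hb' (chG_pos (A := A) (y₀ := y₀) (skMat n θ g) t
      fun i => √t * z i).le
    simp only [obsG, G, M, E] at this ⊢
    linarith
  have hint := integral_mono (p2.sub hiQ) ((hie.const_mul (h * K)).add
    ((hwi.const_mul h).add (him.const_mul (144 * h ^ 2 * B ^ 2)))) hpt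
  simp only [Pi.add_apply, Pi.sub_apply] at hint
  rw [integral_sub p2 hiQ, p1, integral_add (hie.const_mul _)
    ((hwi.const_mul _).fun_add (him.const_mul _)), integral_add (hwi.const_mul _) (him.const_mul _),
    integral_const_mul, integral_const_mul, integral_const_mul, heE, heM] at hint
  have hD' := mul_le_mul_of_nonneg_left hD h0
  have hint' : chQ θ g y₀ A (t + h) f - chQ θ g y₀ A t f ≤
      h * K * chPhi θ g y₀ A t f +
        (h * D + 144 * h ^ 2 * B ^ 2 * mean (skMat n θ g) y₀ f) :=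
    le_trans hint (add_le_add le_rfl (add_le_add hD' le_rfl))
  simp only [chPhi] at hint' ⊢
  linarith

/-- The channel for the entropy. -/
theorem entropy_run (hA : IsRoot (skMat n 1 g) c L A) {B : ℝ} (hB : ∀ x, ∑ k, chDir A x k ^ 2 ≤ B)
    {T K : ℝ} {N : ℕ} (hT : 0 ≤ T) (hN : 0 < N) (hK : 0 ≤ K) (hTB : 4 * (T / N * B) ≤ 1)
    (hTK : 2 * (T / N * K) ≤ 1) (θ : ℝ) (y₀ : Fin n → ℝ) {f : (Fin n → Bool) → ℝ}
    (hf : ∀ x, 0 < f x) {w : ℕ → (Fin n → ℝ) → ℝ}
    (hbound : ∀ k < N, ∀ Y : Fin n → ℝ,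
      shiftSq A (skMat n (θ - T * k / N) g) (chField A y₀ Y) f ≤
        mean (skMat n (θ - T * k / N) g) (chField A y₀ Y) f *
          (K * ent (skMat n (θ - T * k / N) g) (chField A y₀ Y) f + w k Y))
    (hwi : ∀ k < N, Integrable (obsG θ g y₀ A (T * k / N) (w k)) (stdPi (Fin n))) {D : ℝ} (hD0 : 0 ≤ D)
    (hD : ∀ k < N, ∫ z, obsG θ g y₀ A (T * k / N) (w k) z ∂stdPi (Fin n) ≤ D) :
    ent (skMat n θ g) y₀ f ≤ Real.exp (2 * T * K) *
      ((∫ z, obsG θ g y₀ A T (fun Y => ent (skMat n (θ - T) g) (chField A y₀ Y) f) z ∂stdPi (Fin n)) +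
        (T * D + 144 * (T / N) * T * B ^ 2 * mean (skMat n θ g) y₀ f)) := by
  have hN' : (0 : ℝ) < N := by exact_mod_cast hN
  set h := T / N with hh
  have h0 : 0 ≤ h := div_nonneg hT hN'.le
  have hm : 0 < mean (skMat n θ g) y₀ f := Ent.mean_pos hf
  set Φ : ℕ → ℝ := fun k => chPhi θ g y₀ A (T * k / N) f with hΦ
  have hΦ0 : ∀ k, 0 ≤ Φ k := fun k => by
    simp only [hΦ, chPhi]
    rw [← (integral_chG_ent hA (by positivity) θ y₀ f).1]
    exact integral_nonneg fun z => mul_nonneg (chG_pos _ _ _).le (Beyond.ent_nonneg hf)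
  have step : ∀ k < N, Φ k * (1 - h * K) ≤ Φ (k + 1) +
      (h * D + 144 * h ^ 2 * B ^ 2 * mean (skMat n θ g) y₀ f) := fun k hk => by
    have e1 : T * ((k + 1 : ℕ) : ℝ) / N = T * k / N + h := by rw [hh]; push_cast; ring
    simp only [hΦ, e1]
    exact chPhi_step_w hA hB h0 (by positivity) hTB θ y₀ hf (hbound k hk) (hwi k hk) (hD k hk)
  have hrun := grid_iter (mul_nonneg h0 hK) hTK (by positivity) hΦ0 step
  have e0 : Φ 0 = ent (skMat n θ g) y₀ f := by simp [hΦ, chPhi, chQ_zero hA, ent]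
  have eN : Φ N = ∫ z, obsG θ g y₀ A T (fun Y => ent (skMat n (θ - T) g) (chField A y₀ Y) f) z
      ∂stdPi (Fin n) := by
    simp only [hΦ, chPhi, mul_div_assoc, div_self hN'.ne', mul_one, obsG]
    rw [(integral_chG_ent hA hT θ y₀ f).1]
  rw [e0, eN] at hrun
  refine hrun.trans (le_of_eq ?_)
  rw [hh]
  field_simp

/-- The expected squared posterior mean at time `t`. -/
noncomputable def chQ2 (θ : ℝ) (g : Edge n → ℝ) (y₀ : Fin n → ℝ) (A : Fin n → Fin n → ℝ) (t : ℝ)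
    (f : (Fin n → Bool) → ℝ) : ℝ :=
  ∫ z, obsG θ g y₀ A t (fun Y => mean (skMat n (θ - t) g) (chField A y₀ Y) f ^ 2) z ∂stdPi (Fin n)

theorem integrable_obsG_bdd (hA : IsRoot (skMat n 1 g) c L A) {t : ℝ} (ht : 0 ≤ t) (θ : ℝ)
    (y₀ : Fin n → ℝ) {F : (Fin n → ℝ) → ℝ} (hF : Measurable F) {R : ℝ} (hR : ∀ Y, |F Y| ≤ R) :
    Integrable (obsG θ g y₀ A t F) (stdPi (Fin n)) := by
  have hs : Measurable fun z : Fin n → ℝ => fun k => √t * z k := by fun_prop
  refine Integrable.mono' ((integral_chG_mean hA ht θ y₀ fun _ => R).2)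
    ((((continuous_chG _ _ _ _).measurable).comp hs).mul (hF.comp hs)).aestronglyMeasurable
    (Filter.Eventually.of_forall fun z => ?_)
  rw [obsG, Real.norm_eq_abs, abs_mul, abs_of_pos (chG_pos _ _ _), mean_const]
  exact mul_le_mul_of_nonneg_left (hR _) (chG_pos _ _ _).le

theorem abs_mean_le_sum (J : Fin n → Fin n → ℝ) (y : Fin n → ℝ) (f : (Fin n → Bool) → ℝ) :
    |mean J y f| ≤ ∑ x, |f x| := by
  refine (Finset.abs_sum_le_sum_abs _ _).trans (Finset.sum_le_sum fun x _ => ?_)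
  rw [abs_mul, abs_of_pos (weight_pos y x)]
  refine mul_le_of_le_one_left (abs_nonneg _) ?_
  rw [← sum_weight (J := J) y]
  exact Finset.single_le_sum (fun x _ => (weight_pos (J := J) y x).le) (Finset.mem_univ x)

theorem integrable_obsG_mean_sq (hA : IsRoot (skMat n 1 g) c L A) {t : ℝ} (ht : 0 ≤ t) (θ : ℝ)
    (y₀ : Fin n → ℝ) (f : (Fin n → Bool) → ℝ) :
    Integrable (obsG θ g y₀ A t fun Y => mean (skMat n (θ - t) g) (chField A y₀ Y) f ^ 2)
      (stdPi (Fin n)) :=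
  integrable_obsG_bdd hA ht θ y₀ ((continuous_mean_chField _ _ _ _).pow 2).measurable
    (R := (∑ x, |f x|) ^ 2) fun Y => by
      rw [abs_pow]
      exact pow_le_pow_left₀ (abs_nonneg _) (abs_mean_le_sum _ _ f) 2

/-- The expected posterior variance at time `t`. -/
noncomputable def chVar (θ : ℝ) (g : Edge n → ℝ) (y₀ : Fin n → ℝ) (A : Fin n → Fin n → ℝ) (t : ℝ)
    (f : (Fin n → Bool) → ℝ) : ℝ :=
  mean (skMat n θ g) y₀ (fun x => f x ^ 2) - chQ2 θ g y₀ A t f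

theorem integral_obsG_var (hA : IsRoot (skMat n 1 g) c L A) {t : ℝ} (ht : 0 ≤ t) (θ : ℝ)
    (y₀ : Fin n → ℝ) (f : (Fin n → Bool) → ℝ) :
    ∫ z, obsG θ g y₀ A t (fun Y => var (skMat n (θ - t) g) (chField A y₀ Y) f) z ∂stdPi (Fin n) =
        chVar θ g y₀ A t f ∧
      Integrable (obsG θ g y₀ A t fun Y => var (skMat n (θ - t) g) (chField A y₀ Y) f)
        (stdPi (Fin n)) := by
  obtain ⟨h1, h2⟩ := integral_chG_mean hA ht θ y₀ fun x => f x ^ 2
  have h3 := integrable_obsG_mean_sq hA ht θ y₀ f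
  unfold obsG at h3 ⊢
  simp only [var_eq, mul_sub]
  exact ⟨by rw [integral_sub h2 h3, h1, chVar, chQ2]; rfl, h2.sub' h3⟩

/-- One step for the variance. -/
theorem chVar_step (hA : IsRoot (skMat n 1 g) c L A) {B : ℝ} (hB : ∀ x, ∑ k, chDir A x k ^ 2 ≤ B)
    {h t : ℝ} (h0 : 0 ≤ h) (ht0 : 0 ≤ t) {K : ℝ} (hhB : 4 * (h * B) ≤ 1) (θ : ℝ) (y₀ : Fin n → ℝ)
    (f : (Fin n → Bool) → ℝ) {w : (Fin n → ℝ) → ℝ}
    (hbound : ∀ Y : Fin n → ℝ, shiftSq A (skMat n (θ - t) g) (chField A y₀ Y) f ≤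
      K * var (skMat n (θ - t) g) (chField A y₀ Y) f + w Y)
    (hwi : Integrable (obsG θ g y₀ A t w) (stdPi (Fin n))) {D : ℝ}
    (hD : ∫ z, obsG θ g y₀ A t w z ∂stdPi (Fin n) ≤ D) :
    chVar θ g y₀ A t f * (1 - h * (K + 24 * h * B ^ 2)) ≤ chVar θ g y₀ A (t + h) f + h * D := by
  have hsq : √t ^ 2 + √h ^ 2 = √(t + h) ^ 2 := by
    rw [Real.sq_sqrt ht0, Real.sq_sqrt h0, Real.sq_sqrt (add_nonneg ht0 h0)]
  set F : (Fin n → ℝ) → ℝ := fun Y => chG (skMat n θ g) y₀ A (t + h) Y *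
    mean (skMat n (θ - (t + h)) g) (chField A y₀ Y) f ^ 2 with hF
  obtain ⟨p1, p2⟩ := integral_pair hsq (F := F) ((continuous_chG _ _ _ _).mul
    ((continuous_mean_chField _ _ _ _).pow 2)).measurable
    (integrable_obsG_mean_sq hA (add_nonneg ht0 h0) θ y₀ f)
  have hiQ := integrable_obsG_mean_sq hA ht0 θ y₀ f
  obtain ⟨heV, hiv⟩ := integral_obsG_var hA ht0 θ y₀ f
  set Q := obsG θ g y₀ A t fun Y => mean (skMat n (θ - t) g) (chField A y₀ Y) f ^ 2 with hQ
  set V := obsG θ g y₀ A t fun Y => var (skMat n (θ - t) g) (chField A y₀ Y) f with hV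
  have hpt : ∀ z, (∫ z', F (fun i => √t * z i + √h * z' i) ∂stdPi (Fin n)) - Q z ≤
      h * (K + 24 * h * B ^ 2) * V z + h * obsG θ g y₀ A t w z := fun z => by
    refine (channel_step_sq hA hB h0 hhB θ y₀ (fun i => √t * z i) f).trans ?_
    have := mul_le_mul_of_nonneg_left (mul_le_mul_of_nonneg_left (hbound fun i => √t * z i) h0)
      (chG_pos (A := A) (y₀ := y₀) (skMat n θ g) t fun i => √t * z i).le
    simp only [V, obsG]
    linarith
  have hint := integral_mono (p2.sub hiQ) ((hiv.const_mul (h * (K + 24 * h * B ^ 2))).add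
    (hwi.const_mul h)) hpt
  simp only [Pi.add_apply, Pi.sub_apply] at hint
  rw [integral_sub p2 hiQ, p1, integral_add (hiv.const_mul _) (hwi.const_mul _),
    integral_const_mul, integral_const_mul, heV] at hint
  have hint' : chQ2 θ g y₀ A (t + h) f - chQ2 θ g y₀ A t f ≤
      h * (K + 24 * h * B ^ 2) * chVar θ g y₀ A t f + h * ∫ z, obsG θ g y₀ A t w z ∂stdPi (Fin n) :=
    hint
  have := mul_le_mul_of_nonneg_left hD h0
  simp only [chVar] at hint' ⊢
  linarith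

/-- The channel for the variance. -/
theorem var_run (hA : IsRoot (skMat n 1 g) c L A) {B : ℝ} (hB : ∀ x, ∑ k, chDir A x k ^ 2 ≤ B)
    {T K : ℝ} {N : ℕ} (hT : 0 ≤ T) (hN : 0 < N) (hK : 0 ≤ K) (hTB : 4 * (T / N * B) ≤ 1)
    (hTK : 2 * (T / N * (K + 24 * (T / N) * B ^ 2)) ≤ 1) (θ : ℝ) (y₀ : Fin n → ℝ)
    (f : (Fin n → Bool) → ℝ) {w : ℕ → (Fin n → ℝ) → ℝ}
    (hbound : ∀ k < N, ∀ Y : Fin n → ℝ,
      shiftSq A (skMat n (θ - T * k / N) g) (chField A y₀ Y) f ≤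
        K * var (skMat n (θ - T * k / N) g) (chField A y₀ Y) f + w k Y)
    (hwi : ∀ k < N, Integrable (obsG θ g y₀ A (T * k / N) (w k)) (stdPi (Fin n))) {D : ℝ} (hD0 : 0 ≤ D)
    (hD : ∀ k < N, ∫ z, obsG θ g y₀ A (T * k / N) (w k) z ∂stdPi (Fin n) ≤ D) :
    var (skMat n θ g) y₀ f ≤ Real.exp (2 * T * (K + 24 * (T / N) * B ^ 2)) *
      ((∫ z, obsG θ g y₀ A T (fun Y => var (skMat n (θ - T) g) (chField A y₀ Y) f) z ∂stdPi (Fin n)) +
        T * D) := by
  have hN' : (0 : ℝ) < N := by exact_mod_cast hN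
  set h := T / N with hh
  have h0 : 0 ≤ h := div_nonneg hT hN'.le
  set Φ : ℕ → ℝ := fun k => chVar θ g y₀ A (T * k / N) f with hΦ
  have hΦ0 : ∀ k, 0 ≤ Φ k := fun k => by
    simp only [hΦ]
    rw [← (integral_obsG_var hA (by positivity) θ y₀ f).1]
    exact integral_nonneg fun z => mul_nonneg (chG_pos _ _ _).le (mean_nonneg _ fun x => sq_nonneg _)
  have step : ∀ k < N, Φ k * (1 - h * (K + 24 * h * B ^ 2)) ≤ Φ (k + 1) + h * D := fun k hk => by
    have e1 : T * ((k + 1 : ℕ) : ℝ) / N = T * k / N + h := by rw [hh]; push_cast; ring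
    simp only [hΦ, e1]
    exact chVar_step hA hB h0 (by positivity) hTB θ y₀ f (hbound k hk) (hwi k hk) (hD k hk)
  have hrun := grid_iter (mul_nonneg h0 (by positivity)) hTK (mul_nonneg h0 hD0) hΦ0 step
  have e0 : Φ 0 = var (skMat n θ g) y₀ f := by
    have hf' : chField A y₀ (fun _ => 0) = y₀ := funext fun i => by simp [chField]
    have hG : chG (skMat n θ g) y₀ A 0 (fun _ => 0) = 1 := by simp [chG, chTilt, sum_weight y₀]
    simp [hΦ, chVar, chQ2, obsG, hf', hG, var_eq]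
  have eN : Φ N = ∫ z, obsG θ g y₀ A T (fun Y => var (skMat n (θ - T) g) (chField A y₀ Y) f) z
      ∂stdPi (Fin n) := by
    rw [(integral_obsG_var hA hT θ y₀ f).1]
    simp only [hΦ, mul_div_assoc, div_self hN'.ne', mul_one]
  rw [e0, eN] at hrun
  refine hrun.trans (le_of_eq ?_)
  rw [hh]
  field_simp

end Vale.Agent.P150.Full.E
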