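import Vale.Agent.P150.Beyond.Channel.Run

/-!
# P150, module E6: one step of the channel for the variance

In time `h` the second moment of the posterior mean grows by at most `h` times the squared change of
the magnetisations plus `O(h²)` times the variance.
-/

open Finset MeasureTheory Real
open Vale.Agent.P150.Fast
open Vale.Agent.P150.Beyond

namespace Vale.Agent.P150.Full.E

variable {n : ℕ} {g : Edge n → ℝ} {c L : ℝ} {A : Fin n → Fin n → ℝ}

/-- A centred combination of likelihoods, squared and divided by the average likelihood. -/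
theorem tilted_sq_le (A : Fin n → Fin n → ℝ) {B h : ℝ} (hB : ∀ x, ∑ k, chDir A x k ^ 2 ≤ B)
    (h0 : 0 ≤ h) (hhB : 4 * (h * B) ≤ 1) {p : (Fin n → Bool) → ℝ} (hp0 : ∀ x, 0 ≤ p x)
    (hp1 : ∑ x, p x = 1) (D : (Fin n → Bool) → ℝ) (hD0 : ∑ x, D x = 0) :
    ∫ z, (∑ x, D x * chTilt A h (fun k => √h * z k) x) ^ 2 *
        Real.exp (-∑ x, p x * (∑ k, √h * z k * chDir A x k - h / 2 * ∑ k, chDir A x k ^ 2))
          ∂stdPi (Fin n) ≤
      h * (∑ k, (∑ x, D x * chDir A x k) ^ 2) + 24 * h ^ 2 * B ^ 2 * (∑ x, |D x|) ^ 2 ∧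
    Integrable (fun z => (∑ x, D x * chTilt A h (fun k => √h * z k) x) ^ 2 *
        Real.exp (-∑ x, p x * (∑ k, √h * z k * chDir A x k - h / 2 * ∑ k, chDir A x k ^ 2)))
      (stdPi (Fin n)) := by
  set ā : Fin n → ℝ := fun k => ∑ x, p x * chDir A x k with hā
  set m2 := ∑ x, p x * ∑ k, chDir A x k ^ 2 with hm2
  set b : (Fin n → Bool) → Fin n → ℝ := fun x k => chDir A x k - ā k with hbdef
  set V := m2 - ∑ k, ā k ^ 2 with hV
  have hquad : ∀ z : Fin n → ℝ, (∑ x, D x * chTilt A h (fun k => √h * z k) x) ^ 2 *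
      Real.exp (-∑ x, p x * (∑ k, √h * z k * chDir A x k - h / 2 * ∑ k, chDir A x k ^ 2)) =
      ∑ x, ∑ y, D x * D y * (Real.exp (-(h / 2) * (∑ k, chDir A x k ^ 2 + ∑ k, chDir A y k ^ 2 - m2)) *
        Real.exp (∑ k, (√h * (chDir A x k + chDir A y k - ā k)) * z k)) := fun z => by
    have em : ∑ x, p x * (∑ k, √h * z k * chDir A x k - h / 2 * ∑ k, chDir A x k ^ 2) =
        (∑ k, √h * z k * ā k) - h / 2 * m2 := by
      simp only [hā, hm2, mul_sub, Finset.sum_sub_distrib, Finset.mul_sum]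
      congr 1
      · rw [Finset.sum_comm]
        exact Finset.sum_congr rfl fun k _ => Finset.sum_congr rfl fun x _ => by ring
      · exact Finset.sum_congr rfl fun x _ => Finset.sum_congr rfl fun k _ => by ring
    rw [em, sq, Finset.sum_mul_sum, Finset.sum_mul]
    refine Finset.sum_congr rfl fun x _ => ?_
    rw [Finset.sum_mul]
    refine Finset.sum_congr rfl fun y _ => ?_
    rw [show ∀ u v w : ℝ, D x * u * (D y * v) * w = D x * D y * (u * v * w) from fun u v w => by ring]
    simp only [chTilt, ← Real.exp_add]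
    congr 2
    simp only [mul_sub, mul_add, sub_mul, add_mul, Finset.sum_sub_distrib, Finset.sum_add_distrib]
    simp only [mul_right_comm _ (chDir A _ _), mul_right_comm _ (ā _)]
    ring
  have hint2 : ∀ x y, Integrable (fun z : Fin n → ℝ => D x * D y *
      (Real.exp (-(h / 2) * (∑ k, chDir A x k ^ 2 + ∑ k, chDir A y k ^ 2 - m2)) *
        Real.exp (∑ k, (√h * (chDir A x k + chDir A y k - ā k)) * z k))) (stdPi (Fin n)) :=
    fun x y => ((integrable_exp_dot _).const_mul _).const_mul _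
  simp only [hquad]
  refine ⟨?_, integrable_finsetSum _ fun x _ => integrable_finsetSum _ fun y _ => hint2 x y⟩
  have hI : ∫ z, ∑ x, ∑ y, D x * D y *
      (Real.exp (-(h / 2) * (∑ k, chDir A x k ^ 2 + ∑ k, chDir A y k ^ 2 - m2)) *
        Real.exp (∑ k, (√h * (chDir A x k + chDir A y k - ā k)) * z k)) ∂stdPi (Fin n) =
      Real.exp (h * V / 2) * ∑ x, ∑ y, D x * D y * Real.exp (h * ∑ k, b x k * b y k) := by
    rw [integral_finsetSum _ fun x _ => integrable_finsetSum _ fun y _ => hint2 x y,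
      Finset.mul_sum]
    refine Finset.sum_congr rfl fun x _ => ?_
    rw [integral_finsetSum _ fun y _ => hint2 x y, Finset.mul_sum]
    refine Finset.sum_congr rfl fun y _ => ?_
    rw [integral_const_mul, integral_const_mul, integral_exp_dot, ← Real.exp_add,
      mul_left_comm (Real.exp _), ← Real.exp_add]
    congr 2
    have f1 : ∑ k, (√h * (chDir A x k + chDir A y k - ā k)) ^ 2 =
        h * ((∑ k, chDir A x k ^ 2) + (∑ k, chDir A y k ^ 2) + (∑ k, ā k ^ 2) +
          2 * (∑ k, chDir A x k * chDir A y k) - 2 * (∑ k, chDir A x k * ā k) -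
          2 * ∑ k, chDir A y k * ā k) := by
      simp only [mul_pow, Real.sq_sqrt h0, ← Finset.mul_sum]
      congr 1
      simp only [Finset.mul_sum, ← Finset.sum_add_distrib, ← Finset.sum_sub_distrib]
      exact Finset.sum_congr rfl fun k _ => by ring
    have f2 : ∑ k, b x k * b y k = (∑ k, chDir A x k * chDir A y k) -
        (∑ k, chDir A x k * ā k) - (∑ k, chDir A y k * ā k) + ∑ k, ā k ^ 2 := by
      simp only [hbdef, ← Finset.sum_add_distrib, ← Finset.sum_sub_distrib]
      exact Finset.sum_congr rfl fun k _ => by ring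
    rw [f1, f2, hV]
    ring
  rw [hI]
  have hB0 : 0 ≤ B := le_trans (Finset.sum_nonneg fun k _ => sq_nonneg _) (hB fun _ => true)
  have hm2B : m2 ≤ B := by
    refine (Finset.sum_le_sum fun x _ => mul_le_mul_of_nonneg_left (hB x) (hp0 x)).trans ?_
    rw [← Finset.sum_mul, hp1, one_mul]
  have hām2 : ∑ k, ā k ^ 2 ≤ m2 := by
    rw [hm2]
    simp only [Finset.mul_sum]
    rw [Finset.sum_comm]
    refine Finset.sum_le_sum fun k _ => ?_
    refine (Finset.sum_sq_le_sum_mul_sum_of_sq_le_mul (R := ℝ) univ (fun x _ => hp0 x)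
      (fun x _ => mul_nonneg (hp0 x) (sq_nonneg (chDir A x k)))
      fun x _ => le_of_eq (by ring)).trans_eq ?_
    rw [hp1, one_mul]
  have hb : ∀ x, ∑ k, b x k ^ 2 ≤ 4 * B := fun x => by
    have : ∀ k, b x k ^ 2 ≤ 2 * chDir A x k ^ 2 + 2 * ā k ^ 2 := fun k => by
      have := add_sq_le (a := chDir A x k) (b := -ā k)
      rw [neg_sq] at this
      simp only [hbdef, sub_eq_add_neg]
      linarith
    refine (Finset.sum_le_sum fun k _ => this k).trans ?_
    rw [Finset.sum_add_distrib, ← Finset.mul_sum, ← Finset.mul_sum]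
    linarith [hB x]
  set S := ∑ k, (∑ x, D x * chDir A x k) ^ 2 with hS
  set M := ∑ x, |D x|
  have hM : 0 ≤ M := Finset.sum_nonneg fun x _ => abs_nonneg _
  have eS : ∑ k, (∑ x, D x * b x k) ^ 2 = S := by
    refine Finset.sum_congr rfl fun k _ => ?_
    congr 1
    simp only [hbdef, mul_sub, Finset.sum_sub_distrib, ← Finset.sum_mul, hD0, zero_mul, sub_zero]
  have hpair := sum_exp_pair_le D hD0 b hb (le_refl M) h0 (by linarith)
  rw [eS] at hpair
  have hS4 : S ≤ M ^ 2 * (4 * B) := by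
    rw [← eS]
    refine (Finset.sum_le_sum fun k _ => channel_step.abs_sum_sq_le D fun x => b x k).trans ?_
    rw [← Finset.mul_sum, Finset.sum_comm]
    calc M * ∑ x, ∑ k, |D x| * b x k ^ 2
        = M * ∑ x, |D x| * ∑ k, b x k ^ 2 := by simp only [Finset.mul_sum]
      _ ≤ M * ∑ x, |D x| * (4 * B) :=
          mul_le_mul_of_nonneg_left (Finset.sum_le_sum fun x _ =>
            mul_le_mul_of_nonneg_left (hb x) (abs_nonneg _)) hM
      _ = M ^ 2 * (4 * B) := by rw [← Finset.sum_mul]; ring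
  have hS0 : 0 ≤ S := Finset.sum_nonneg fun k _ => sq_nonneg _
  have hhB0 : 0 ≤ h * B := mul_nonneg h0 hB0
  have hE : Real.exp (h * V / 2) ≤ 1 + h * B := by
    have hV0 : 0 ≤ V := by linarith
    have h1 : h * V ≤ h * B := mul_le_mul_of_nonneg_left
      (by linarith [Finset.sum_nonneg (s := univ) fun k _ => sq_nonneg (ā k)]) h0
    have h3 := Real.abs_exp_sub_one_le (x := h * V / 2)
      (by rw [abs_of_nonneg (by positivity)]; linarith)
    rw [abs_of_nonneg (show 0 ≤ h * V / 2 by positivity)] at h3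
    linarith [(abs_le.1 h3).2]
  refine (mul_le_mul_of_nonneg_left hpair (Real.exp_pos _).le).trans ?_
  refine (mul_le_mul_of_nonneg_right hE (add_nonneg (mul_nonneg h0 hS0) (by positivity))).trans ?_
  have k1 := mul_le_mul_of_nonneg_left hS4 (mul_nonneg hhB0 h0)
  have k2 := mul_le_mul_of_nonneg_right (show h * B ≤ 1 / 4 by linarith)
    (show 0 ≤ h ^ 2 * (4 * B) ^ 2 * M ^ 2 by positivity)
  linarith

/-- One step of the channel from time `t`, for the second moment of the mean. -/
theorem channel_step_sq (hA : IsRoot (skMat n 1 g) c L A) {B h t : ℝ}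
    (hB : ∀ x, ∑ k, chDir A x k ^ 2 ≤ B) (h0 : 0 ≤ h) (hhB : 4 * (h * B) ≤ 1) (θ : ℝ)
    (y₀ Y : Fin n → ℝ) (f : (Fin n → Bool) → ℝ) :
    ∫ z, chG (skMat n θ g) y₀ A (t + h) (fun k => Y k + √h * z k) *
        mean (skMat n (θ - (t + h)) g) (chField A y₀ fun k => Y k + √h * z k) f ^ 2 ∂stdPi (Fin n) -
      chG (skMat n θ g) y₀ A t Y * mean (skMat n (θ - t) g) (chField A y₀ Y) f ^ 2 ≤
    chG (skMat n θ g) y₀ A t Y *
      (h * shiftSq A (skMat n (θ - t) g) (chField A y₀ Y) f +
        24 * h ^ 2 * B ^ 2 * var (skMat n (θ - t) g) (chField A y₀ Y) f) := by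
  set p := weight (skMat n (θ - t) g) (chField A y₀ Y) with hp
  set G := chG (skMat n θ g) y₀ A t Y with hG
  set M := mean (skMat n (θ - t) g) (chField A y₀ Y) f with hM
  have hG0 : 0 < G := chG_pos _ _ _
  have hp0 : ∀ x, 0 < p x := fun x => weight_pos _ x
  have hp1 : ∑ x, p x = 1 := sum_weight _
  set D : (Fin n → Bool) → ℝ := fun x => p x * (f x - M) with hD
  have hD0 : ∑ x, D x = 0 := by
    simp only [hD, mul_sub, Finset.sum_sub_distrib, ← Finset.sum_mul, hp1, hM, mean, ← hp]
    ring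
  obtain ⟨hq, hqi⟩ := tilted_sq_le A hB h0 hhB (fun x => (hp0 x).le) hp1 D hD0
  set ξ : (Fin n → ℝ) → (Fin n → Bool) → ℝ := fun z x => chTilt A h (fun k => √h * z k) x with hξ
  set m : (Fin n → ℝ) → ℝ := fun z => ∑ x, p x * (∑ k, √h * z k * chDir A x k -
    h / 2 * ∑ k, chDir A x k ^ 2)
  set R : (Fin n → ℝ) → ℝ := fun z => ∑ x, p x * ξ z x with hR
  have hsum : ∀ z F, chG (skMat n θ g) y₀ A (t + h) (fun k => Y k + √h * z k) *
      mean (skMat n (θ - (t + h)) g) (chField A y₀ fun k => Y k + √h * z k) F =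
      G * ∑ x, p x * F x * ξ z x := fun z F => by
    rw [← sum_weight_tilt hA, Finset.mul_sum]
    refine Finset.sum_congr rfl fun x _ => ?_
    have hsplit : chTilt A (t + h) (fun k => Y k + √h * z k) x = chTilt A t Y x * ξ z x := by
      simp only [hξ, chTilt, ← Real.exp_add]
      congr 1
      simp only [add_mul, Finset.sum_add_distrib]
      ring
    rw [hsplit, ← mul_assoc, ← weight_channel hA θ t y₀ Y x]
    ring
  have hpoint : ∀ z, chG (skMat n θ g) y₀ A (t + h) (fun k => Y k + √h * z k) *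
      mean (skMat n (θ - (t + h)) g) (chField A y₀ fun k => Y k + √h * z k) f ^ 2 ≤
      G * (M ^ 2 * R z + 2 * M * (∑ x, D x * ξ z x) + (∑ x, D x * ξ z x) ^ 2 * Real.exp (-m z)) :=
    fun z => by
    set G' := chG (skMat n θ g) y₀ A (t + h) (fun k => Y k + √h * z k)
    set M' := mean (skMat n (θ - (t + h)) g) (chField A y₀ fun k => Y k + √h * z k) f
    have eG : G' = G * R z := by
      have := hsum z fun _ => 1
      simpa [mean_const, hR] using this
    have eM : G' * M' = G * ∑ x, p x * f x * ξ z x := hsum z f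
    have hR0 : 0 < R z :=
      Finset.sum_pos (fun x _ => mul_pos (hp0 x) (Real.exp_pos _)) univ_nonempty
    have hRm : Real.exp (m z) ≤ R z := by
      have hc := convexOn_exp.map_sum_le (t := univ) (fun x _ => (hp0 x).le) hp1
        (p := fun x => ∑ k, √h * z k * chDir A x k - h / 2 * ∑ k, chDir A x k ^ 2)
        fun x _ => Set.mem_univ _
      simpa [smul_eq_mul, hR, hξ, chTilt, m] using hc
    have eD : ∑ x, D x * ξ z x = (M' - M) * R z := by
      have e : ∑ x, D x * ξ z x = (∑ x, p x * f x * ξ z x) - M * R z := by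
        simp only [hD, hR, Finset.mul_sum, ← Finset.sum_sub_distrib]
        exact Finset.sum_congr rfl fun x _ => by ring
      rw [eG, mul_assoc] at eM
      rw [e, ← mul_left_cancel₀ hG0.ne' eM]
      ring
    rw [eG, mul_assoc]
    refine mul_le_mul_of_nonneg_left ?_ hG0.le
    rw [eD]
    have h2 : R z * (M' - M) ^ 2 ≤ ((M' - M) * R z) ^ 2 * Real.exp (-m z) := by
      rw [Real.exp_neg, ← div_eq_mul_inv, le_div_iff₀ (Real.exp_pos _)]
      calc R z * (M' - M) ^ 2 * Real.exp (m z) ≤ R z * (M' - M) ^ 2 * R z :=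
            mul_le_mul_of_nonneg_left hRm (mul_nonneg hR0.le (sq_nonneg _))
        _ = _ := by ring
    linarith [show R z * M' ^ 2 = M ^ 2 * R z + 2 * M * ((M' - M) * R z) + R z * (M' - M) ^ 2 by ring]
  have hint1 : ∀ x, Integrable (fun z => ξ z x) (stdPi (Fin n)) := fun x => (integral_chTilt h0 x).2
  have hIR : ∫ z, R z ∂stdPi (Fin n) = 1 ∧ Integrable R (stdPi (Fin n)) := by
    refine ⟨?_, integrable_finsetSum _ fun x _ => (hint1 x).const_mul _⟩
    simp only [hR]
    rw [integral_finsetSum _ fun x _ => (hint1 x).const_mul _]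
    simp only [integral_const_mul, hξ, (integral_chTilt h0 _).1, mul_one, hp1]
  have hID : ∫ z, ∑ x, D x * ξ z x ∂stdPi (Fin n) = 0 ∧
      Integrable (fun z => ∑ x, D x * ξ z x) (stdPi (Fin n)) := by
    refine ⟨?_, integrable_finsetSum _ fun x _ => (hint1 x).const_mul _⟩
    rw [integral_finsetSum _ fun x _ => (hint1 x).const_mul _]
    simp only [integral_const_mul, hξ, (integral_chTilt h0 _).1, mul_one, hD0]
  have hle := integral_mono_of_nonneg (μ := stdPi (Fin n))
    (Filter.Eventually.of_forall fun z => mul_nonneg (chG_pos _ _ _).le (sq_nonneg _))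
    ((((hIR.2.const_mul (M ^ 2)).fun_add (hID.2.const_mul (2 * M))).fun_add hqi).const_mul G)
    (Filter.Eventually.of_forall hpoint)
  rw [integral_const_mul, integral_add ((hIR.2.const_mul _).fun_add (hID.2.const_mul _)) hqi,
    integral_add (hIR.2.const_mul _) (hID.2.const_mul _), integral_const_mul, integral_const_mul,
    hIR.1, hID.1] at hle
  have hDV : (∑ x, |D x|) ^ 2 ≤ var (skMat n (θ - t) g) (chField A y₀ Y) f := by
    refine (Finset.sum_sq_le_sum_mul_sum_of_sq_le_mul (R := ℝ) univ (fun x _ => (hp0 x).le)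
      (fun x _ => mul_nonneg (hp0 x).le (sq_nonneg (f x - M)))
      fun x _ => le_of_eq (by rw [sq_abs]; simp only [hD]; ring)).trans_eq ?_
    rw [hp1, one_mul]
    rfl
  have eS : ∑ k, (∑ x, D x * chDir A x k) ^ 2 = shiftSq A (skMat n (θ - t) g) (chField A y₀ Y) f := by
    rw [shiftSq_eq]
  have k3 := mul_le_mul_of_nonneg_left (hq.trans (add_le_add le_rfl (mul_le_mul_of_nonneg_left hDV
    (by positivity)))) hG0.le
  rw [eS] at k3
  linarith

end Vale.Agent.P150.Full.E
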